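import Vale.Agent.P080.MathlibUsed

/-!
Definitions for the boundary regularity of infinity-harmonic functions.
-/

namespace Vale.Agent.N080B

open Metric

variable {E : Type*} [NormedAddCommGroup E] [InnerProductSpace ℝ E]

/-- `u` is continuous on `Ω` and a viscosity solution of `D²u(∇u, ∇u) = 0` in `Ω`, tested with all
`C²` functions. -/
def InfHarm [CompleteSpace E] (u : E → ℝ) (Ω : Set E) : Prop :=
  ContinuousOn u Ω ∧ ∀ z ∈ Ω, ∀ φ : E → ℝ, ContDiff ℝ 2 φ →
    (IsLocalMax (u - φ) z → 0 ≤ iteratedFDeriv ℝ 2 φ z ![gradient φ z, gradient φ z]) ∧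
    (IsLocalMin (u - φ) z → iteratedFDeriv ℝ 2 φ z ![gradient φ z, gradient φ z] ≤ 0)

/-- The boundary of `Ω` is `C^{1,γ}` at the point `c`, with inner unit normal `ν`, at scale `R`:
in the ball of radius `R` about `c` the set `Ω` contains the points of height more than
`|y - c| (|y - c| / R)^γ` and contains only points of height more than `-|y - c| (|y - c| / R)^γ`,
the height of `y` being `⟨ν, y - c⟩`. -/
def FlatAt (Ω : Set E) (c ν : E) (γ R : ℝ) : Prop :=
  ‖ν‖ = 1 ∧ ∀ y ∈ ball c R,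
    (‖y - c‖ * (‖y - c‖ / R) ^ γ < inner ℝ ν (y - c) → y ∈ Ω) ∧
    (y ∈ Ω → -(‖y - c‖ * (‖y - c‖ / R) ^ γ) < inner ℝ ν (y - c))

end Vale.Agent.N080B
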