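import Vale.Agent.N080B.Jensen
import Vale.Agent.N080B.Defs
import Vale.Agent.N080.Camp

/-!
Lipschitz bound up to the boundary; approximation near a flat boundary point by odd functions with
comparison with cones.
-/

set_option linter.unusedSectionVars false

namespace Vale.Agent.N080B

open Vale.Agent.P080 Vale.Agent.N080 Metric Set Filter
open scoped RealInnerProductSpace Topology

variable {E : Type*} [NormedAddCommGroup E] [InnerProductSpace ℝ E] [FiniteDimensional ℝ E]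

theorem cone_ball {U : E → ℝ} {Ω : Set E} {x₀ z : E} {R M a : ℝ} (hΩ : IsOpen Ω) (hR : 0 < R)
    (hU : ConeComp U (Ω ∩ ball x₀ R)) (hc : ContinuousOn U (closure Ω ∩ ball x₀ R))
    (h0 : ∀ y, y ∉ Ω → U y = 0) (hM : ∀ y ∈ ball x₀ R, |U y| ≤ M)
    (hz : ‖z - x₀‖ < 7 * R / 8) (ha : -M ≤ a)
    (h1 : ∀ y, y ∉ Ω → ‖y - z‖ ≤ R / 8 → 0 ≤ a + 16 * M / R * ‖y - z‖) (h2 : z ∈ Ω → U z ≤ a) :
    ∀ y, ‖y - z‖ < R / 8 → U y ≤ a + 16 * M / R * ‖y - z‖ := by
  have hM0 : 0 ≤ M := (abs_nonneg _).trans (hM x₀ (mem_ball_self hR))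
  have hsub : closedBall z (R / 8) ⊆ ball x₀ R := by
    intro y hy
    rw [mem_closedBall, dist_eq_norm] at hy
    rw [mem_ball, dist_eq_norm]
    have := norm_sub_le_norm_sub_add_norm_sub y z x₀
    linarith
  have hcl : closure (Ω ∩ ball z (R / 8)) ⊆ closure Ω ∩ closedBall z (R / 8) :=
    (closure_inter_subset_inter_closure _ _).trans
      (inter_subset_inter_right _ closure_ball_subset_closedBall)
  intro y hy
  by_cases hyΩ : y ∈ Ω
  · refine above_closure hU (hΩ.inter isOpen_ball) (isBounded_ball.subset inter_subset_right)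
      (inter_subset_inter_right _ (ball_subset_closedBall.trans hsub))
      (hc.mono (hcl.trans (inter_subset_inter_right _ hsub))) (by positivity) ?_
      (fun h => h2 h.1) y ⟨hyΩ, by rwa [mem_ball, dist_eq_norm]⟩
    intro x hx
    rw [(hΩ.inter isOpen_ball).frontier_eq] at hx
    have h3 := (hcl hx.1).2
    have h4 := (abs_le.1 (hM x (hsub h3))).2
    rw [mem_closedBall, dist_eq_norm] at h3
    by_cases hxΩ : x ∈ Ω
    · have h5 : ‖x - z‖ = R / 8 := le_antisymm h3 (not_lt.1 fun h =>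
        hx.2 ⟨hxΩ, by rwa [mem_ball, dist_eq_norm]⟩)
      have h6 : 16 * M / R * (R / 8) = 2 * M := by field_simp; ring
      rw [h5, h6]
      linarith
    · rw [h0 x hxΩ]
      exact h1 x hxΩ h3
  · rw [h0 y hyΩ]
    exact h1 y hyΩ hy.le

theorem lip_ext {U : E → ℝ} {Ω : Set E} {x₀ : E} {R M : ℝ} (hΩ : IsOpen Ω) (hR : 0 < R)
    (hU : ConeComp U (Ω ∩ ball x₀ R)) (hc : ContinuousOn U (closure Ω ∩ ball x₀ R))
    (h0 : ∀ y, y ∉ Ω → U y = 0) (hM : ∀ y ∈ ball x₀ R, |U y| ≤ M) :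
    ∀ y ∈ closedBall x₀ (3 * R / 4), ∀ x ∈ closedBall x₀ (3 * R / 4),
      U y - U x ≤ 16 * M / R * ‖y - x‖ := by
  have hM0 : 0 ≤ M := (abs_nonneg _).trans (hM x₀ (mem_ball_self hR))
  have hfar : ∀ s : ℝ, R / 8 ≤ s → 2 * M ≤ 16 * M / R * s := by
    intro s hs
    have h6 : 16 * M / R * (R / 8) = 2 * M := by field_simp; ring
    rw [← h6]
    exact mul_le_mul_of_nonneg_left hs (by positivity)
  intro y hy x hx
  have hy1 := abs_le.1 (hM y (closedBall_subset_ball (by linarith) hy))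
  have hx1 := abs_le.1 (hM x (closedBall_subset_ball (by linarith) hx))
  rw [mem_closedBall, dist_eq_norm] at hx hy
  rcases lt_or_ge ‖y - x‖ (R / 8) with h | h
  · have := cone_ball hΩ hR hU hc h0 hM (z := x) (a := U x) (by linarith) hx1.1 ?_
      (fun _ => le_rfl) y h
    · linarith
    · intro w hw hwx
      rcases hwx.lt_or_eq with h1 | h1
      · have h2 := norm_sub_le_norm_sub_add_norm_sub w x x₀
        have := cone_ball hΩ hR hU.neg hc.neg (fun y hy => by simp [h0 y hy])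
          (fun y hy => by rw [abs_neg]; exact hM y hy) (z := w) (a := 0) (by linarith)
          (by linarith) (fun y _ _ => by positivity) (fun h => (hw h).elim) x
          (by rwa [norm_sub_rev])
        rw [norm_sub_rev] at this
        linarith
      · linarith [hfar _ h1.ge]
  · linarith [hfar _ h]

/-- The reflection in the hyperplane through `c` with normal `ν`. -/
def refl (ν c y : E) : E := y - (2 * ⟪ν, y - c⟫) • ν

theorem refl_height {ν : E} (hν : ‖ν‖ = 1) (c y : E) : ⟪ν, refl ν c y - c⟫ = -⟪ν, y - c⟫ := by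
  have : refl ν c y - c = (y - c) - (2 * ⟪ν, y - c⟫) • ν := by unfold refl; abel
  rw [this, inner_sub_right, real_inner_smul_right, real_inner_self_eq_norm_sq, hν]
  ring

theorem refl_refl {ν : E} (hν : ‖ν‖ = 1) (c y : E) : refl ν c (refl ν c y) = y := by
  rw [refl, refl_height hν, refl]
  module

theorem refl_norm {ν : E} (hν : ‖ν‖ = 1) (c x y : E) : ‖refl ν c x - refl ν c y‖ = ‖x - y‖ := by
  have h1 : refl ν c x - refl ν c y = (x - y) - (2 * ⟪ν, x - y⟫) • ν := by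
    have : x - y = (x - c) - (y - c) := by abel
    rw [this, inner_sub_right ν (x - c) (y - c)]
    unfold refl
    module
  rw [h1, ← sq_eq_sq₀ (norm_nonneg _) (norm_nonneg _), norm_sub_sq_real, real_inner_smul_right,
    norm_smul, hν, mul_one, Real.norm_eq_abs, sq_abs, real_inner_comm]
  ring

theorem refl_center (ν c : E) : refl ν c c = c := by simp [refl]

theorem refl_rad {ν : E} (hν : ‖ν‖ = 1) (c y : E) : ‖refl ν c y - c‖ = ‖y - c‖ := by
  have := refl_norm hν c y c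
  rwa [refl_center] at this

theorem refl_dist {ν : E} (hν : ‖ν‖ = 1) (c y : E) : ‖y - refl ν c y‖ = 2 * |⟪ν, y - c⟫| := by
  rw [refl, sub_sub_cancel, norm_smul, hν, mul_one, Real.norm_eq_abs, abs_mul, abs_two]

theorem near_bdry {U : E → ℝ} {c ν : E} (hν : ‖ν‖ = 1) {r L τ : ℝ} (hr : 0 < r) (hL : 0 ≤ L)
    (hτ : 0 ≤ τ)
    (hlip : ∀ x ∈ closedBall c r, ∀ y ∈ closedBall c r, U x - U y ≤ L * ‖x - y‖)
    (hcc : ConeComp U (ball c r ∩ {y | τ < ⟪ν, y - c⟫}))
    (hz : ∀ y ∈ closedBall c r, ⟪ν, y - c⟫ ≤ -τ → U y = 0)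
    (hs : ∀ y ∈ closedBall c r, |U y| ≤ L * (|⟪ν, y - c⟫| + τ)) :
    ∃ h : E → ℝ, ConeComp h (ball c r) ∧
      (∀ x ∈ closedBall c r, ∀ y ∈ closedBall c r, h x - h y ≤ 2 * L * ‖x - y‖) ∧
      ∀ y ∈ ball c r, (τ < ⟪ν, y - c⟫ → |U y - h y| ≤ 4 * L * τ) ∧
        h (refl ν c y) = -h y ∧ |h y| ≤ 2 * L * |⟪ν, y - c⟫| := by
  have hσc : ∀ y ∈ closedBall c r, refl ν c y ∈ closedBall c r := by
    intro y hy
    rwa [mem_closedBall, dist_eq_norm, refl_rad hν, ← dist_eq_norm]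
  have hσb : ∀ y ∈ ball c r, refl ν c y ∈ ball c r := by
    intro y hy
    rwa [mem_ball, dist_eq_norm, refl_rad hν, ← dist_eq_norm]
  have hσs : ∀ y ∈ sphere c r, refl ν c y ∈ sphere c r := by
    intro y hy
    rwa [mem_sphere, dist_eq_norm, refl_rad hν, ← dist_eq_norm]
  obtain ⟨h, h1, h2, h3⟩ := exists_cone_ext (g := fun y => U y - U (refl ν c y)) (c := c)
    (L := 2 * L) hr (by linarith) ⟨c + r • ν, by simp [norm_smul, hν, abs_of_pos hr]⟩ (by
      intro x hx y hy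
      have hx' := sphere_subset_closedBall hx
      have hy' := sphere_subset_closedBall hy
      have a1 := hlip x hx' y hy'
      have a2 := hlip _ (hσc y hy') _ (hσc x hx')
      rw [refl_norm hν, norm_sub_rev] at a2
      linarith)
  have hcl : closure (ball c r) = closedBall c r := closure_ball c hr.ne'
  have hk1 : ConeComp (fun y => -h (refl ν c y)) (ball c r) :=
    (coneComp_comp h1 isBounded_ball (refl_refl hν c) (refl_norm hν c) hσb).neg
  have hk2 : ∀ x ∈ closedBall c r, ∀ y ∈ closedBall c r,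
      -h (refl ν c x) - -h (refl ν c y) ≤ 2 * L * ‖x - y‖ := by
    intro x hx y hy
    have := h2 _ (hσc y hy) _ (hσc x hx)
    rw [refl_norm hν, norm_sub_rev] at this
    linarith
  have hk3 : ∀ y ∈ sphere c r, h (refl ν c y) = -h y := by
    intro y hy
    rw [h3 y hy, h3 _ (hσs y hy), refl_refl hν]
    ring
  have hodd : ∀ y ∈ closedBall c r, h (refl ν c y) = -h y := by
    intro y hy
    rcases (mem_closedBall.1 hy).lt_or_eq with hy' | hy'
    · have a1 := jensen hν isOpen_ball Subset.rfl (by linarith : 0 ≤ 2 * L) (b := 0)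
        (by rw [hcl]; exact h2) (by rw [hcl]; exact hk2) h1 hk1
        (by rw [frontier_ball c hr.ne']; intro z hz; linarith [hk3 z hz]) y hy'
      have a2 := jensen hν isOpen_ball Subset.rfl (by linarith : 0 ≤ 2 * L) (b := 0)
        (by rw [hcl]; exact hk2) (by rw [hcl]; exact h2) hk1 h1
        (by rw [frontier_ball c hr.ne']; intro z hz; linarith [hk3 z hz]) y hy'
      linarith
    · exact hk3 y hy'
  have hsm : ∀ y ∈ closedBall c r, |h y| ≤ 2 * L * |⟪ν, y - c⟫| := by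
    intro y hy
    have a1 := h2 y hy _ (hσc y hy)
    have a2 := h2 _ (hσc y hy) y hy
    rw [norm_sub_rev] at a2
    rw [refl_dist hν, hodd y hy] at a1 a2
    rw [abs_le]
    constructor <;> linarith
  have hto : IsOpen {y : E | τ < ⟪ν, y - c⟫} := isOpen_lt continuous_const (by fun_prop)
  have hVo := isOpen_ball.inter hto (s := ball c r)
  have hVc : closure (ball c r ∩ {y | τ < ⟪ν, y - c⟫}) ⊆ closedBall c r ∩ {y | τ ≤ ⟪ν, y - c⟫} :=
    closure_minimal (fun y hy => ⟨ball_subset_closedBall hy.1,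
      show τ ≤ ⟪ν, y - c⟫ from le_of_lt hy.2⟩)
      (isClosed_closedBall.inter (isClosed_le continuous_const (by fun_prop)))
  have hfr : ∀ y ∈ frontier (ball c r ∩ {y | τ < ⟪ν, y - c⟫}), |U y - h y| ≤ 4 * L * τ := by
    intro y hy
    rw [hVo.frontier_eq] at hy
    obtain ⟨a1, a2⟩ := hVc hy.1
    have a2' : τ ≤ ⟪ν, y - c⟫ := a2
    rcases (mem_closedBall.1 a1).lt_or_eq with a3 | a3
    · have a4 : ⟪ν, y - c⟫ = τ := le_antisymm (not_lt.1 fun h => hy.2 ⟨a3, h⟩) a2'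
      have a5 := hs y a1
      have a6 := hsm y a1
      rw [a4, abs_of_nonneg hτ] at a5 a6
      exact (abs_sub _ _).trans (by linarith)
    · rw [h3 y a3, hz _ (hσc y a1) (by rw [refl_height hν]; linarith)]
      simp only [sub_zero, sub_self, abs_zero]
      positivity
  have hU2 : ∀ x ∈ closure (ball c r ∩ {y | τ < ⟪ν, y - c⟫}),
      ∀ y ∈ closure (ball c r ∩ {y | τ < ⟪ν, y - c⟫}), U x - U y ≤ 2 * L * ‖x - y‖ := by
    intro x hx y hy
    have := hlip x (hVc hx).1 y (hVc hy).1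
    have := mul_nonneg hL (norm_nonneg (x - y))
    linarith
  have hh2 : ∀ x ∈ closure (ball c r ∩ {y | τ < ⟪ν, y - c⟫}),
      ∀ y ∈ closure (ball c r ∩ {y | τ < ⟪ν, y - c⟫}), h x - h y ≤ 2 * L * ‖x - y‖ :=
    fun x hx y hy => h2 x (hVc hx).1 y (hVc hy).1
  have hh1 := Liou.ConeComp_mono h1 (inter_subset_left (t := {y | τ < ⟪ν, y - c⟫}))
  refine ⟨h, h1, h2, fun y hy => ⟨fun ht => ?_, hodd y (ball_subset_closedBall hy),
    hsm y (ball_subset_closedBall hy)⟩⟩
  have a1 := jensen hν hVo inter_subset_left (by linarith : 0 ≤ 2 * L) hU2 hh2 hcc hh1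
    (fun z hz => (abs_le.1 (hfr z hz)).2) y ⟨hy, ht⟩
  have a2 := jensen hν hVo inter_subset_left (by linarith : 0 ≤ 2 * L) hh2 hU2 hh1 hcc
    (b := 4 * L * τ) (fun z hz => by linarith [(abs_le.1 (hfr z hz)).1]) y ⟨hy, ht⟩
  rw [abs_le]
  constructor <;> linarith

open Classical in
/-- The function `U` on `Ω`, extended by odd reflection. -/
noncomputable def oddExt (Ω : Set E) (U : E → ℝ) (ν c y : E) : ℝ :=
  if y ∈ Ω then U y else -U (refl ν c y)

theorem FlatAt.notMem {Ω : Set E} {c ν : E} {γ R : ℝ} (h : FlatAt Ω c ν γ R) (hR : 0 < R) :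
    c ∉ Ω := fun hc => by
  simpa using (h.2 c (mem_ball_self hR)).2 hc

theorem FlatAt.at_scale {Ω : Set E} {c ν : E} {γ R ρ : ℝ} (h : FlatAt Ω c ν γ R) (hγ : 0 < γ)
    (hρ : ρ < R) {y : E} (hy : ‖y - c‖ ≤ ρ) :
    (ρ * (ρ / R) ^ γ < ⟪ν, y - c⟫ → y ∈ Ω) ∧ (y ∈ Ω → -(ρ * (ρ / R) ^ γ) < ⟪ν, y - c⟫) := by
  have h0 := norm_nonneg (y - c)
  have hR : 0 < R := by linarith
  have h1 : ‖y - c‖ * (‖y - c‖ / R) ^ γ ≤ ρ * (ρ / R) ^ γ := by
    have : 0 ≤ ρ := h0.trans hy
    gcongr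
  obtain ⟨a1, a2⟩ := h.2 y (by rw [mem_ball, dist_eq_norm]; linarith)
  exact ⟨fun ht => a1 (h1.trans_lt ht), fun hy => by linarith [a2 hy]⟩

theorem small_flat {U : E → ℝ} {Ω : Set E} {c ν : E} {γ R r L : ℝ} (h : FlatAt Ω c ν γ R)
    (hγ : 0 < γ) (hr : 0 < r) (hrR : 3 * r < R) (hL : 0 ≤ L) (h0 : ∀ y, y ∉ Ω → U y = 0)
    (hlip : ∀ x ∈ closedBall c (3 * r), ∀ y ∈ closedBall c (3 * r), U x - U y ≤ L * ‖x - y‖) :
    ∀ y ∈ closedBall c r, |U y| ≤ L * (|⟪ν, y - c⟫| + 3 * r * (3 * r / R) ^ γ) := by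
  have hR : 0 < R := by linarith
  set τ := 3 * r * (3 * r / R) ^ γ with hτ
  have hτ0 : 0 ≤ τ := by positivity
  have key : ∀ y ∈ closedBall c (3 * r), ∀ z ∈ closedBall c (3 * r), z ∉ Ω →
      |U y| ≤ L * ‖y - z‖ := by
    intro y hy z hz hzΩ
    have a1 := hlip y hy z hz
    have a2 := hlip z hz y hy
    rw [norm_sub_rev] at a2
    rw [h0 z hzΩ] at a1 a2
    rw [abs_le]
    constructor <;> linarith
  intro y hy
  have hy3 : y ∈ closedBall c (3 * r) := closedBall_subset_closedBall (by linarith) hy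
  rw [mem_closedBall, dist_eq_norm] at hy
  have ht : |⟪ν, y - c⟫| ≤ r := by
    have := abs_real_inner_le_norm ν (y - c)
    rw [h.1, one_mul] at this
    linarith
  rcases le_total r τ with h1 | h1
  · refine (key y hy3 c (mem_closedBall_self (by linarith)) (h.notMem hR)).trans ?_
    exact mul_le_mul_of_nonneg_left (by linarith [abs_nonneg ⟪ν, y - c⟫]) hL
  · have hn : ‖(⟪ν, y - c⟫ + τ) • ν‖ ≤ |⟪ν, y - c⟫| + τ := by
      rw [norm_smul, h.1, mul_one, Real.norm_eq_abs]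
      exact (abs_add_le _ _).trans (by rw [abs_of_nonneg hτ0])
    have he : y - (⟪ν, y - c⟫ + τ) • ν - c = (y - c) - (⟪ν, y - c⟫ + τ) • ν := by abel
    have hz : ‖y - (⟪ν, y - c⟫ + τ) • ν - c‖ ≤ 3 * r := by
      rw [he]
      exact (norm_sub_le _ _).trans (by linarith)
    refine (key y hy3 (y - (⟪ν, y - c⟫ + τ) • ν) (by rwa [mem_closedBall, dist_eq_norm])
      fun hm => ?_).trans ?_
    · have := (h.at_scale hγ hrR hz).2 hm
      rw [he, inner_sub_right, real_inner_smul_right, real_inner_self_eq_norm_sq, h.1] at this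
      linarith
    · rw [sub_sub_cancel]
      exact mul_le_mul_of_nonneg_left hn hL

theorem small_oddExt {U : E → ℝ} {Ω : Set E} {c ν : E} {γ R r L : ℝ} (h : FlatAt Ω c ν γ R)
    (hγ : 0 < γ) (hr : 0 < r) (hrR : 3 * r < R) (hL : 0 ≤ L) (h0 : ∀ y, y ∉ Ω → U y = 0)
    (hlip : ∀ x ∈ closedBall c (3 * r), ∀ y ∈ closedBall c (3 * r), U x - U y ≤ L * ‖x - y‖) :
    ∀ y ∈ closedBall c r, |oddExt Ω U ν c y| ≤ L * (|⟪ν, y - c⟫| + 3 * r * (3 * r / R) ^ γ) := by
  intro y hy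
  unfold oddExt
  split_ifs
  · exact small_flat h hγ hr hrR hL h0 hlip y hy
  · have := small_flat h hγ hr hrR hL h0 hlip (refl ν c y)
      (by rwa [mem_closedBall, dist_eq_norm, refl_rad h.1, ← dist_eq_norm])
    rwa [refl_height h.1, abs_neg, ← abs_neg] at this

theorem near_flat {U : E → ℝ} {Ω : Set E} {c ν : E} {γ R r L : ℝ} (h : FlatAt Ω c ν γ R)
    (hγ : 0 < γ) (hr : 0 < r) (hrR : 3 * r < R) (hL : 0 ≤ L) (h0 : ∀ y, y ∉ Ω → U y = 0)
    (hlip : ∀ x ∈ closedBall c (3 * r), ∀ y ∈ closedBall c (3 * r), U x - U y ≤ L * ‖x - y‖)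
    (hcc : ConeComp U (Ω ∩ ball c r)) :
    ∃ h : E → ℝ, ConeComp h (ball c r) ∧
      (∀ x ∈ closedBall c r, ∀ y ∈ closedBall c r, h x - h y ≤ 2 * L * ‖x - y‖) ∧
      ∀ y ∈ ball c r, |oddExt Ω U ν c y - h y| ≤ 4 * L * (3 * r * (3 * r / R) ^ γ) := by
  have hR : 0 < R := by linarith
  have hsm := small_oddExt h hγ hr hrR hL h0 hlip
  have hsm' := small_flat h hγ hr hrR hL h0 hlip
  have hsc : ∀ y ∈ closedBall c r, _ := fun y hy => h.at_scale hγ hrR (y := y) (by
    rw [mem_closedBall, dist_eq_norm] at hy; linarith)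
  set τ := 3 * r * (3 * r / R) ^ γ with hτ
  have hτ0 : 0 ≤ τ := by positivity
  have hsub : closedBall c r ⊆ closedBall c (3 * r) := closedBall_subset_closedBall (by linarith)
  obtain ⟨k, k1, k2, k3⟩ := near_bdry h.1 hr hL hτ0 (fun x hx y hy => hlip x (hsub hx) y (hsub hy))
    (Liou.ConeComp_mono hcc fun y hy => ⟨(hsc y (ball_subset_closedBall hy.1)).1 hy.2, hy.1⟩)
    (fun y hy ht => h0 y fun hm => by linarith [(hsc y hy).2 hm]) hsm'
  refine ⟨k, k1, k2, fun y hy => ?_⟩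
  have hy' := ball_subset_closedBall hy
  rcases lt_or_ge τ ⟪ν, y - c⟫ with h1 | h1
  · rw [oddExt, if_pos ((hsc y hy').1 h1)]
    exact (k3 y hy).1 h1
  · rcases lt_or_ge ⟪ν, y - c⟫ (-τ) with h2 | h2
    · rw [oddExt, if_neg fun hm => by linarith [(hsc y hy').2 hm]]
      have a1 := (k3 (refl ν c y)
        (by rwa [mem_ball, dist_eq_norm, refl_rad h.1, ← dist_eq_norm])).1
        (by rw [refl_height h.1]; linarith)
      rw [(k3 y hy).2.1] at a1
      rw [← abs_neg]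
      exact le_of_eq_of_le (by congr 1; ring) a1
    · have a1 : |⟪ν, y - c⟫| ≤ τ := abs_le.2 ⟨h2, h1⟩
      have a2 := hsm y hy'
      have a3 := (k3 y hy).2.2
      have a4 := mul_le_mul_of_nonneg_left a1 hL
      exact (abs_sub _ _).trans (by nlinarith)

end Vale.Agent.N080B
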