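import Vale.Agent.N080B.Bd

/-!
Expansions of order `1 + β`, uniform up to a flat boundary, and the Hölder bound for the gradient.
-/

set_option linter.unusedSectionVars false

namespace Vale.Agent.N080B

open Vale.Agent.P080 Vale.Agent.N080 Metric Set Filter
open scoped RealInnerProductSpace Topology

variable {E : Type} [NormedAddCommGroup E] [InnerProductSpace ℝ E] [CompleteSpace E]
  [FiniteDimensional ℝ E]

theorem near_self {U u : E → ℝ} {Ω : Set E} {x₀ x : E} {R r L η : ℝ} (hr : 0 < r)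
    (hrR : r ≤ R / 32) (hL : 0 ≤ L) (hη : 0 ≤ η) (hx : ‖x - x₀‖ ≤ R / 2)
    (hlip : ∀ x ∈ closedBall x₀ (3 * R / 4), ∀ y ∈ closedBall x₀ (3 * R / 4),
      U x - U y ≤ L * ‖x - y‖)
    (hcc : ConeComp U (Ω ∩ ball x₀ R)) (hb : ball x r ⊆ Ω) (hu : ∀ y ∈ Ω, u y = U y) :
    Near u x r (2 * L) η := by
  have hsub : closedBall x r ⊆ closedBall x₀ (3 * R / 4) := by
    intro y hy
    rw [mem_closedBall, dist_eq_norm] at hy ⊢
    have := norm_sub_le_norm_sub_add_norm_sub y x x₀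
    linarith
  refine ⟨U, Liou.ConeComp_mono hcc fun y hy => ⟨hb hy,
    closedBall_subset_ball (by linarith) (hsub (ball_subset_closedBall hy))⟩, ?_, ?_⟩
  · intro a ha b hb
    have := hlip a (hsub ha) b (hsub hb)
    have := mul_nonneg hL (norm_nonneg (a - b))
    linarith
  · intro y hy
    rw [hu y (hb (by rw [mem_ball, dist_eq_norm]; linarith)), sub_self, abs_zero]
    exact hη

theorem near_point {U : E → ℝ} {Ω : Set E} {x₀ x c ν : E} {γ R L : ℝ} (h : FlatAt Ω c ν γ R)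
    (hγ : 0 < γ) (hL : 0 ≤ L) (h0 : ∀ y, y ∉ Ω → U y = 0) (hx : ‖x - x₀‖ ≤ R / 2)
    (hlip : ∀ x ∈ closedBall x₀ (3 * R / 4), ∀ y ∈ closedBall x₀ (3 * R / 4),
      U x - U y ≤ L * ‖x - y‖)
    (hcc : ConeComp U (Ω ∩ ball x₀ R)) (hb : ball x ‖x - c‖ ⊆ Ω) (r : ℝ) (hr : 0 < r)
    (hrR : r ≤ R / 32) :
    Near (oddExt Ω U ν c) x r (2 * L) (12 * (2 * L) * r * (r / (R / 32)) ^ γ) := by
  have hR : 0 < R := by linarith
  rcases le_or_gt r ‖x - c‖ with h1 | h1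
  · exact near_self hr hrR hL (by positivity) hx hlip hcc ((ball_subset_ball h1).trans hb)
      fun y hy => if_pos hy
  · have hc : ‖c - x₀‖ ≤ R / 2 + r := by
      have := norm_sub_le_norm_sub_add_norm_sub c x x₀
      rw [norm_sub_rev c x] at this
      linarith
    have hsub : closedBall c (3 * (2 * r)) ⊆ closedBall x₀ (3 * R / 4) := by
      intro y hy
      rw [mem_closedBall, dist_eq_norm] at hy ⊢
      have := norm_sub_le_norm_sub_add_norm_sub y c x₀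
      linarith
    obtain ⟨k, k1, k2, k3⟩ := near_flat h hγ (r := 2 * r) (by linarith) (by linarith) hL h0
      (fun a ha b hb => hlip a (hsub ha) b (hsub hb))
      (Liou.ConeComp_mono hcc (inter_subset_inter_right _
        ((ball_subset_closedBall.trans (closedBall_subset_closedBall (by linarith))).trans
          (hsub.trans (closedBall_subset_ball (by linarith))))))
    have hin : closedBall x r ⊆ ball c (2 * r) := by
      intro y hy
      rw [mem_closedBall, dist_eq_norm] at hy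
      rw [mem_ball, dist_eq_norm]
      have := norm_sub_le_norm_sub_add_norm_sub y x c
      linarith
    refine ⟨k, Liou.ConeComp_mono k1 (ball_subset_closedBall.trans hin),
      fun a ha b hb => k2 a (ball_subset_closedBall (hin ha)) b (ball_subset_closedBall (hin hb)),
      fun y hy => (k3 y (hin (by rw [mem_closedBall, dist_eq_norm]; linarith))).trans ?_⟩
    have h2 : (3 * (2 * r) / R) ^ γ ≤ (r / (R / 32)) ^ γ := by
      apply Real.rpow_le_rpow (by positivity) _ hγ.le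
      rw [div_le_div_iff₀ hR (by positivity)]
      nlinarith
    have h3 : 4 * L * (3 * (2 * r) * (3 * (2 * r) / R) ^ γ) =
        12 * (2 * L) * r * (3 * (2 * r) / R) ^ γ := by ring
    rw [h3]
    exact mul_le_mul_of_nonneg_left h2 (by positivity)

theorem exists_nearest {Ω : Set E} (hΩ : IsOpen Ω) {x : E} (hx : x ∈ Ω) {ρ : ℝ}
    (h : ¬ ball x ρ ⊆ Ω) : ∃ c ∈ frontier Ω, ‖x - c‖ < ρ ∧ ball x ‖x - c‖ ⊆ Ω := by
  obtain ⟨z, hz1, hz2⟩ := not_subset.1 h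
  obtain ⟨w, hw1, hw2⟩ := hΩ.isClosed_compl.exists_infDist_eq_dist ⟨z, hz2⟩ x
  obtain ⟨c, hc, hseg⟩ := H510.exists_frontier_segment hΩ hx hw1
  have h1 := seg_norm hseg
  have h2 : infDist x Ωᶜ ≤ dist x z := infDist_le_dist_of_mem hz2
  rw [mem_ball, dist_comm] at hz1
  rw [dist_eq_norm] at hw2
  have h3 : ‖x - c‖ ≤ infDist x Ωᶜ := by linarith [norm_nonneg (c - w)]
  exact ⟨c, hc, by linarith, (ball_subset_ball h3).trans ball_infDist_compl_subset⟩

theorem tendsto_small (k : ℝ) {γ : ℝ} (hγ : 0 < γ) :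
    Tendsto (fun ρ : ℝ => (ρ * k) ^ γ) (𝓝 0) (𝓝 0) := by
  have h1 : ContinuousAt (fun ρ : ℝ => (ρ * k) ^ γ) 0 :=
    (continuousAt_id.mul continuousAt_const).rpow_const (Or.inr hγ.le)
  have := h1.tendsto
  rwa [zero_mul, Real.zero_rpow hγ.ne'] at this

theorem hasGradientAt_of_exp {U : E → ℝ} {x p : E} {A t₀ β : ℝ} (hβ : 0 < β)
    (h : ∀ᶠ y in 𝓝 x, |U y - U x - ⟪p, y - x⟫| ≤ A * ‖y - x‖ * (‖y - x‖ / t₀) ^ β) :
    HasGradientAt U p x := by
  rw [hasGradientAt_iff_isLittleO, Asymptotics.isLittleO_iff]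
  intro ε hε
  have h1 : Tendsto (fun y : E => ‖y - x‖) (𝓝 x) (𝓝 0) := tendsto_norm_sub_self x
  have h2 := ((tendsto_small t₀⁻¹ hβ).comp h1).const_mul A
  rw [mul_zero] at h2
  filter_upwards [h, h2.eventually (ge_mem_nhds hε)] with y hy1 hy2
  rw [Real.norm_eq_abs]
  refine hy1.trans ?_
  rw [mul_right_comm, div_eq_mul_inv]
  exact mul_le_mul_of_nonneg_right hy2 (norm_nonneg _)

theorem holder_cork {U : E → ℝ} {Ω : Set E} {x y z p q : E} {A t₀ β ρ : ℝ} (hβ : 0 < β)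
    (hA : 0 ≤ A) (hρ : 0 < ρ) (hρt : 5 * ρ ≤ t₀)
    (hp : ∀ w ∈ Ω, ‖w - x‖ ≤ t₀ → |U w - U x - ⟪p, w - x⟫| ≤ A * ‖w - x‖ * (‖w - x‖ / t₀) ^ β)
    (hq : ∀ w ∈ Ω, ‖w - y‖ ≤ t₀ → |U w - U y - ⟪q, w - y⟫| ≤ A * ‖w - y‖ * (‖w - y‖ / t₀) ^ β)
    (hz : ball z ρ ⊆ Ω) (hzx : ‖z - x‖ ≤ 4 * ρ) (hzy : ‖z - y‖ ≤ 4 * ρ) :
    ‖p - q‖ ≤ 40 * A * (5 * ρ / t₀) ^ β := by
  have ht : 0 < t₀ := by linarith
  have key : ∀ (x p : E), (∀ w ∈ Ω, ‖w - x‖ ≤ t₀ →
      |U w - U x - ⟪p, w - x⟫| ≤ A * ‖w - x‖ * (‖w - x‖ / t₀) ^ β) → ‖z - x‖ ≤ 4 * ρ →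
      ∀ w : E, ‖w‖ ≤ ρ / 2 →
        |U (z + w) - U z - ⟪p, w⟫| ≤ 2 * (A * (5 * ρ) * (5 * ρ / t₀) ^ β) := by
    intro x p hp hzx w hw
    have h1 : ∀ v ∈ Ω, ‖v - x‖ ≤ 5 * ρ →
        |U v - U x - ⟪p, v - x⟫| ≤ A * (5 * ρ) * (5 * ρ / t₀) ^ β := by
      intro v hv hvx
      refine (hp v hv (hvx.trans hρt)).trans ?_
      gcongr
    have h2 : z + w - x = (z - x) + w := by abel
    have a1 := h1 z (hz (mem_ball_self hρ)) (by linarith)
    have a2 := h1 (z + w) (hz (by rw [mem_ball, dist_eq_norm, add_sub_cancel_left]; linarith))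
      (by rw [h2]; exact (norm_add_le _ _).trans (by linarith))
    rw [h2, inner_add_right] at a2
    rw [abs_le] at a1 a2 ⊢
    constructor <;> linarith [a1.1, a1.2, a2.1, a2.2]
  refine norm_le_of_inner_le (t := ρ / 2) (by linarith) (by positivity) fun w hw => ?_
  have a1 := (abs_le.1 (key x p hp hzx w hw)).1
  have a2 := (abs_le.1 (key y q hq hzy w hw)).2
  rw [inner_sub_left]
  linarith

theorem cork {Ω : Set E} {c ν : E} {γ R ρ : ℝ} (h : FlatAt Ω c ν γ R) (hγ : 0 < γ) (hρ : 0 < ρ)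
    (h1 : 3 * ρ < R) (h2 : (3 * ρ / R) ^ γ ≤ 1 / 3) : ball (c + (2 * ρ) • ν) ρ ⊆ Ω := by
  intro y hy
  rw [mem_ball, dist_eq_norm] at hy
  have he : y - c = (y - (c + (2 * ρ) • ν)) + (2 * ρ) • ν := by abel
  have hn : ‖(2 * ρ) • ν‖ = 2 * ρ := by
    rw [norm_smul, h.1, mul_one, Real.norm_of_nonneg (by linarith)]
  refine (h.at_scale hγ h1 (y := y) ?_).1 ?_
  · rw [he]
    exact (norm_add_le _ _).trans (by linarith)
  · have h3 := abs_real_inner_le_norm ν (y - (c + (2 * ρ) • ν))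
    rw [h.1, one_mul] at h3
    rw [he, inner_add_right, real_inner_smul_right, real_inner_self_eq_norm_sq, h.1]
    have h4 := (abs_le.1 h3).1
    nlinarith

theorem rpow_scale {s k β : ℝ} (hs : 0 ≤ s) (hk : 1 ≤ k) (hβ1 : β ≤ 1) :
    (k * s) ^ β ≤ k * s ^ β := by
  rw [Real.mul_rpow (by linarith) hs]
  apply mul_le_mul_of_nonneg_right _ (by positivity)
  calc k ^ β ≤ k ^ (1 : ℝ) := Real.rpow_le_rpow_of_exponent_le hk hβ1
    _ = k := Real.rpow_one _

theorem le_rpow_of_le {s k β : ℝ} (hk : 0 < k) (hk1 : k ≤ 1) (hs : k ≤ s) (hβ : 0 < β)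
    (hβ1 : β ≤ 1) : k ≤ s ^ β :=
  calc k = k ^ (1 : ℝ) := (Real.rpow_one _).symm
    _ ≤ k ^ β := Real.rpow_le_rpow_of_exponent_ge hk hk1 hβ1
    _ ≤ s ^ β := Real.rpow_le_rpow hk.le hs hβ.le

/-- Expansion of order `1 + β` from approximation at all scales. -/
def ExpandsNear (E : Type) [NormedAddCommGroup E] [InnerProductSpace ℝ E] (γ β D : ℝ) : Prop :=
  ∀ (u : E → ℝ) (c : E) (R L : ℝ), 0 < R → 0 ≤ L →
    (∀ r, 0 < r → r ≤ R / 32 → Near u c r (2 * L) (12 * (2 * L) * r * (r / (R / 32)) ^ γ)) →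
    ∃ p : E, ∀ y, ‖y - c‖ ≤ R / 128 →
      |u y - u c - ⟪p, y - c⟫| ≤ D * L * ‖y - c‖ * (‖y - c‖ / (R / 128)) ^ β

theorem exists_expandsNear {γ : ℝ} (hγ : 0 < γ) :
    ∃ β D : ℝ, 0 < β ∧ β ≤ 1 ∧ 0 < D ∧ ExpandsNear E γ β D := by
  obtain ⟨α, h0, h1, C, hC, hE⟩ := H510.coneEstimate (E := E)
  obtain ⟨D, hD, h⟩ := expands_of_near h0 h1 hC hE hγ
  have hθ0 : 0 < γ / (2 + γ) := by positivity
  have hθ1 : γ / (2 + γ) ≤ 1 := by rw [div_le_one (by linarith)]; linarith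
  refine ⟨α * (γ / (2 + γ)), D * 26, by positivity, by nlinarith, by linarith, ?_⟩
  intro u c R L hR hL hn
  obtain ⟨p, hp⟩ := h u c (R / 32) (2 * L) 12 (by positivity) (by positivity) (by norm_num) hn
  refine ⟨p, fun y hy => ?_⟩
  have h2 : R / 32 / 4 = R / 128 := by ring
  rw [h2] at hp
  exact (hp y hy).trans (le_of_eq (by ring))

theorem grad_holder {γ β D : ℝ} (hγ : 0 < γ) (hβ : 0 < β) (hβ1 : β ≤ 1) (hD : 0 < D)
    (hE : ExpandsNear E γ β D) : ∃ C : ℝ, 1 ≤ C ∧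
    ∀ (U : E → ℝ) (Ω : Set E) (x₀ : E) (R L : ℝ), IsOpen Ω → 0 < R → 0 ≤ L →
      (∀ y, y ∉ Ω → U y = 0) →
      (∀ x ∈ closedBall x₀ (3 * R / 4), ∀ y ∈ closedBall x₀ (3 * R / 4),
        U x - U y ≤ L * ‖x - y‖) →
      ConeComp U (Ω ∩ ball x₀ R) → (∀ c ∈ frontier Ω ∩ ball x₀ R, ∃ ν, FlatAt Ω c ν γ R) →
      ∀ x ∈ Ω ∩ ball x₀ (R / 2), ‖gradient U x‖ ≤ L ∧ ∀ y ∈ Ω ∩ ball x₀ (R / 2),
        ‖gradient U x - gradient U y‖ ≤ C * L * (‖x - y‖ / R) ^ β := by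
  set κ : ℝ := (1 / 3 : ℝ) ^ γ⁻¹ with hκ
  have hκ0 : 0 < κ := by positivity
  have hκ1 : κ ≤ 1 := Real.rpow_le_one (by norm_num) (by norm_num) (by positivity)
  have hκγ : κ ^ γ = 1 / 3 := Real.rpow_inv_rpow (by norm_num) hγ.ne'
  have hC1 : 0 < 2 / (κ / 640) := by positivity
  refine ⟨1 + 40 * D * 640 + 2 / (κ / 640), by nlinarith, ?_⟩
  intro U Ω x₀ R L hΩ hR hL h0 hlip hcc hflat
  have hrad : ∀ x ∈ Ω ∩ ball x₀ (R / 2), ‖x - x₀‖ < R / 2 := fun x hx => by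
    have := hx.2
    rwa [mem_ball, dist_eq_norm] at this
  have hfr : ∀ x ∈ Ω ∩ ball x₀ (R / 2), ∀ c ∈ frontier Ω, ‖x - c‖ < R / 32 →
      ∃ ν, FlatAt Ω c ν γ R := by
    intro x hx c hc hxc
    refine hflat c ⟨hc, ?_⟩
    have := norm_sub_le_norm_sub_add_norm_sub c x x₀
    rw [norm_sub_rev c x] at this
    rw [mem_ball, dist_eq_norm]
    linarith [hrad x hx]
  have hexp : ∀ x ∈ Ω ∩ ball x₀ (R / 2), ∀ w ∈ Ω, ‖w - x‖ ≤ R / 128 →
      |U w - U x - ⟪gradient U x, w - x⟫| ≤ D * L * ‖w - x‖ * (‖w - x‖ / (R / 128)) ^ β := by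
    intro x hx
    have : ∃ p : E, ∀ w ∈ Ω, ‖w - x‖ ≤ R / 128 →
        |U w - U x - ⟪p, w - x⟫| ≤ D * L * ‖w - x‖ * (‖w - x‖ / (R / 128)) ^ β := by
      by_cases hb : ball x (R / 32) ⊆ Ω
      · obtain ⟨p, hp⟩ := hE U x R L hR hL fun r hr hrR =>
          near_self hr hrR hL (by positivity) (hrad x hx).le hlip hcc
            ((ball_subset_ball hrR).trans hb) fun _ _ => rfl
        exact ⟨p, fun w _ hw => hp w hw⟩
      · obtain ⟨c, hc1, hc2, hc3⟩ := exists_nearest hΩ hx.1 hb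
        obtain ⟨ν, hν⟩ := hfr x hx c hc1 hc2
        obtain ⟨p, hp⟩ := hE _ x R L hR hL (near_point hν hγ hL h0 (hrad x hx).le hlip hcc hc3)
        refine ⟨p, fun w hwΩ hw => ?_⟩
        have := hp w hw
        rwa [oddExt, oddExt, if_pos hwΩ, if_pos hx.1] at this
    obtain ⟨p, hp⟩ := this
    have hg : HasGradientAt U p x := hasGradientAt_of_exp hβ (by
      filter_upwards [hΩ.mem_nhds hx.1, closedBall_mem_nhds x (by positivity : 0 < R / 128)]
        with w hw1 hw2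
      exact hp w hw1 (by rwa [mem_closedBall, dist_eq_norm] at hw2))
    rwa [hg.gradient]
  have hbd : ∀ x ∈ Ω ∩ ball x₀ (R / 2), ‖gradient U x‖ ≤ L := by
    intro x hx
    rw [gradient, LinearIsometryEquiv.norm_map]
    refine norm_fderiv_le_of_lip' ℝ hL ?_
    have hx' : x ∈ ball x₀ (3 * R / 4) := ball_subset_ball (by linarith) hx.2
    filter_upwards [isOpen_ball.mem_nhds hx'] with w hw
    have a1 := hlip w (ball_subset_closedBall hw) x (ball_subset_closedBall hx')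
    have a2 := hlip x (ball_subset_closedBall hx') w (ball_subset_closedBall hw)
    rw [norm_sub_rev] at a2
    rw [Real.norm_eq_abs, abs_le]
    constructor <;> linarith
  refine fun x hx => ⟨hbd x hx, fun y hy => ?_⟩
  have hpos : 0 ≤ L * (‖x - y‖ / R) ^ β := by positivity
  rcases (norm_nonneg (x - y)).eq_or_lt with hρ | hρ
  · rw [sub_eq_zero.1 (norm_eq_zero.1 hρ.symm), sub_self, norm_zero]
    positivity
  rcases le_total (‖x - y‖ / R) (κ / 640) with h1 | h1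
  · have h1' := (div_le_iff₀ hR).1 h1
    have h2 : κ * R ≤ R := by nlinarith
    obtain ⟨z, hz1, hz2⟩ : ∃ z, ball z ‖x - y‖ ⊆ Ω ∧ ‖z - x‖ ≤ 3 * ‖x - y‖ := by
      by_cases hb : ball x ‖x - y‖ ⊆ Ω
      · exact ⟨x, hb, by rw [sub_self, norm_zero]; positivity⟩
      · obtain ⟨c, hc1, hc2, -⟩ := exists_nearest hΩ hx.1 hb
        obtain ⟨ν, hν⟩ := hfr x hx c hc1 (by linarith)
        refine ⟨_, cork hν hγ hρ (by linarith) ?_, ?_⟩
        · rw [← hκγ]
          apply Real.rpow_le_rpow (by positivity) _ hγ.le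
          rw [div_le_iff₀ hR]
          linarith
        · have he : c + (2 * ‖x - y‖) • ν - x = (2 * ‖x - y‖) • ν - (x - c) := by abel
          rw [he]
          refine (norm_sub_le _ _).trans ?_
          rw [norm_smul, hν.1, mul_one, Real.norm_of_nonneg (by positivity)]
          linarith
    have h3 := holder_cork hβ (by positivity) hρ (by linarith) (hexp x hx) (hexp y hy) hz1
      (by linarith) (by linarith [norm_sub_le_norm_sub_add_norm_sub z x y])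
    have h4 : 5 * ‖x - y‖ / (R / 128) = 640 * (‖x - y‖ / R) := by field_simp; ring
    rw [h4] at h3
    have h5 := mul_le_mul_of_nonneg_left
      (rpow_scale (s := ‖x - y‖ / R) (k := 640) (by positivity) (by norm_num) hβ1)
      (by positivity : 0 ≤ 40 * (D * L))
    have h6 := mul_nonneg hC1.le hpos
    nlinarith
  · have h2 := le_rpow_of_le (by positivity) (by linarith) h1 hβ hβ1
    have h3 : 2 * L ≤ 2 / (κ / 640) * (L * (‖x - y‖ / R) ^ β) := by
      have h4 : 2 * L = 2 / (κ / 640) * (L * (κ / 640)) := by field_simp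
      rw [h4]
      gcongr
    have h5 := norm_sub_le (gradient U x) (gradient U y)
    have h6 := mul_nonneg hD.le hpos
    nlinarith [hbd x hx, hbd y hy]

end Vale.Agent.N080B
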