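import Vale.Agent.N080.Close

/-!
Comparison for two Lipschitz functions with comparison with cones on a bounded open set, and
comparison with cones up to the boundary.
-/

set_option linter.unusedSectionVars false

namespace Vale.Agent.N080B

open Vale.Agent.P080 Vale.Agent.N080 Metric Set Filter
open scoped RealInnerProductSpace Topology

variable {E : Type*} [NormedAddCommGroup E] [InnerProductSpace ℝ E] [FiniteDimensional ℝ E]

theorem mid_cone {u : E → ℝ} {V : Set E} (hu : ConeComp u V) {x : E} {ε m : ℝ} (hε : 0 < ε)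
    (hx : closedBall x (2 * ε) ⊆ V) (hm : ∀ y ∈ closedBall x (2 * ε), u y ≤ m) :
    ∀ y ∈ closedBall x ε, u y - u x ≤ (m - u x) / 2 := by
  intro y hy
  rw [mem_closedBall, dist_eq_norm] at hy
  have h0 : u x ≤ m := hm x (mem_closedBall_self (by linarith))
  have hb0 : 0 ≤ (m - u x) / (2 * ε) := div_nonneg (by linarith) (by linarith)
  have h5 := hu.above (ball x (2 * ε)) isOpen_ball isBounded_ball
    (closure_ball_subset_closedBall.trans hx) x (u x) ((m - u x) / (2 * ε)) hb0 ?_
    (fun _ => le_rfl) y (by rw [mem_ball, dist_eq_norm]; linarith)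
  · have h6 := mul_le_mul_of_nonneg_left hy hb0
    have h7 : (m - u x) / (2 * ε) * ε = (m - u x) / 2 := by field_simp
    linarith
  · intro z hz
    rw [frontier_ball _ (by linarith)] at hz
    have h6 := hm z (sphere_subset_closedBall hz)
    rw [mem_sphere, dist_eq_norm] at hz
    have h7 : (m - u x) / (2 * ε) * (2 * ε) = m - u x := by field_simp
    rw [hz, h7]
    linarith

theorem jensen_aux {u h : E → ℝ} {V : Set E} {c e : E} (he : ‖e‖ = 1) {r ε L b δ l : ℝ}
    (hV : IsOpen V) (hVr : V ⊆ ball c r) (hε : 0 < ε) (hL : 0 ≤ L) (hδ : 0 < δ) (hl : 0 < l)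
    (hu : ∀ x ∈ closure V, ∀ y ∈ closure V, u x - u y ≤ L * ‖x - y‖)
    (hh : ∀ x ∈ closure V, ∀ y ∈ closure V, h x - h y ≤ L * ‖x - y‖)
    (hcu : ConeComp u V) (hch : ConeComp h V) (hb : ∀ y ∈ frontier V, u y - h y ≤ b)
    {x₀ : E} (hx₀ : closedBall x₀ ε ⊆ V) :
    u x₀ - h x₀ ≤ (b + 6 * L * ε) + 2 * δ * (2 * r / ε) +
      l * (4 * L * r + 2 * δ * (2 * r / ε)) ^ 2 := by
  let X := {x : E // closedBall x ε ⊆ V}
  have hmx : ∀ x : X, ∃ y ∈ closedBall x.1 ε, IsMaxOn u (closedBall x.1 ε) y := fun x =>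
    (isCompact_closedBall x.1 ε).exists_isMaxOn ⟨x.1, mem_closedBall_self hε.le⟩
      (hcu.cont.mono x.2)
  have hmn : ∀ x : X, ∃ y ∈ closedBall x.1 ε, IsMinOn h (closedBall x.1 ε) y := fun x =>
    (isCompact_closedBall x.1 ε).exists_isMinOn ⟨x.1, mem_closedBall_self hε.le⟩
      (hch.cont.mono x.2)
  choose mx hmx1 hmx2 using hmx
  choose mn hmn1 hmn2 using hmn
  set w : X → ℝ := fun x => u (mx x) with hw
  set v : X → ℝ := fun x => h (mn x) with hv
  have hw1 : ∀ (x : X) (y : E), ‖y - x.1‖ ≤ ε → u y ≤ w x := fun x y hy =>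
    hmx2 x (by rwa [mem_closedBall, dist_eq_norm])
  have hv1 : ∀ (x : X) (y : E), ‖y - x.1‖ ≤ ε → v x ≤ h y := fun x y hy =>
    hmn2 x (by rwa [mem_closedBall, dist_eq_norm])
  have hmem : ∀ x : X, x.1 ∈ V := fun x => x.2 (mem_closedBall_self hε.le)
  have hw2 : ∀ x : X, w x ≤ u x.1 + L * ε := by
    intro x
    have h1 := hu (mx x) (subset_closure (x.2 (hmx1 x))) x.1 (subset_closure (hmem x))
    have h2 := hmx1 x
    rw [mem_closedBall, dist_eq_norm] at h2
    have h3 := mul_le_mul_of_nonneg_left h2 hL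
    simp only [hw]
    linarith
  have hv2 : ∀ x : X, h x.1 - L * ε ≤ v x := by
    intro x
    have h1 := hh x.1 (subset_closure (hmem x)) (mn x) (subset_closure (x.2 (hmn1 x)))
    have h2 := hmn1 x
    rw [mem_closedBall, dist_eq_norm, norm_sub_rev] at h2
    have h3 := mul_le_mul_of_nonneg_left h2 hL
    simp only [hv]
    linarith
  have hnear : ∀ (x : X), closedBall x.1 (2 * ε) ⊆ V → ∀ y : E, ‖y - x.1‖ ≤ ε →
      closedBall y ε ⊆ V := by
    intro x hx y hy z hz
    apply hx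
    rw [mem_closedBall, dist_eq_norm] at hz ⊢
    have := norm_sub_le_norm_sub_add_norm_sub z y x.1
    linarith
  have hrad : ∀ y ∈ V, ‖y - c‖ ≤ r := fun y hy => by
    have := hVr hy
    rw [mem_ball, dist_eq_norm] at this
    exact this.le
  have hx0V : x₀ ∈ V := hx₀ (mem_closedBall_self hε.le)
  have hdiam : ∀ y ∈ V, L * ‖y - x₀‖ ≤ 2 * L * r := by
    intro y hy
    have h1 := norm_sub_le_norm_sub_add_norm_sub y c x₀
    rw [norm_sub_rev c x₀] at h1
    have h2 : ‖y - x₀‖ ≤ 2 * r := by linarith [hrad y hy, hrad x₀ hx0V]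
    have := mul_le_mul_of_nonneg_left h2 hL
    linarith
  have key := fd_compare (X := X) (adj := fun x y => ‖y.1 - x.1‖ ≤ ε)
    (I := {x | closedBall x.1 (2 * ε) ⊆ V}) (v := v) (w := w)
    (φ := fun x => (r - ⟪e, x.1 - c⟫) / ε) (δ := δ) (δ' := 0) (κ := 0) (l := l)
    (N := 2 * r / ε) (m := h x₀ - 2 * L * r) (M := 4 * L * r) (W := u x₀ + 2 * L * r)
    (b := b + 6 * L * ε)
    (fun x y hxy => by rwa [norm_sub_rev]) hδ hδ hl.le (by positivity)
    ?_ ?_ ?_ ?_ ?_ ?_ ?_ ?_ ?_ ⟨x₀, hx₀⟩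
  · have h1 := hw1 ⟨x₀, hx₀⟩ x₀ (by simp [hε.le])
    have h2 := hv1 ⟨x₀, hx₀⟩ x₀ (by simp [hε.le])
    linarith
  · intro x hx
    have hx' : closedBall x.1 (2 * ε) ⊆ V := hx
    obtain ⟨q, hq1, hq2⟩ := (isCompact_closedBall x.1 (2 * ε)).exists_isMinOn
      ⟨x.1, mem_closedBall_self (by linarith)⟩ (hch.cont.mono hx')
    have hq3 : ∀ y : E, ‖y - x.1‖ ≤ 2 * ε → h q ≤ h y := fun y hy =>
      hq2 (by rwa [mem_closedBall, dist_eq_norm])
    rw [mem_closedBall, dist_eq_norm] at hq1
    obtain ⟨y', hy'1, hy'2⟩ := mid_point hq1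
    have h1 : v ⟨y', hnear x hx' y' hy'1⟩ ≤ h q := hv1 _ q hy'2
    have h3 := mid_cone hch.neg (m := -h q) hε hx'
      (fun y hy => neg_le_neg (hq3 y (by rwa [mem_closedBall, dist_eq_norm] at hy)))
      (mn x) (hmn1 x)
    have h3' : v x = h (mn x) := rfl
    refine ⟨⟨y', hnear x hx' y' hy'1⟩, hy'1, fun y hy => ⟨h1.trans ?_, ?_⟩⟩
    · apply hq3
      have h4 := hmn1 y
      rw [mem_closedBall, dist_eq_norm] at h4
      have := norm_sub_le_norm_sub_add_norm_sub (mn y) y.1 x.1
      linarith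
    · have h4 := hv1 y x.1 (by rwa [norm_sub_rev])
      linarith
  · intro x hx P hP y hy
    have hx' : closedBall x.1 (2 * ε) ⊆ V := hx
    have h1 := mid_cone hcu (m := w x + P) hε hx' ?_ (mx x) (hmx1 x)
    · have h2 := hw1 y x.1 (by rwa [norm_sub_rev])
      have h3 : w x = u (mx x) := rfl
      exact le_max_of_le_right (by linarith)
    · intro z hz
      rw [mem_closedBall, dist_eq_norm] at hz
      obtain ⟨y', hy'1, hy'2⟩ := mid_point hz
      have h2 := hP ⟨y', hnear x hx' y' hy'1⟩ hy'1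
      have h3 := hw1 ⟨y', hnear x hx' y' hy'1⟩ z hy'2
      linarith
  · intro x
    have h1 := real_inner_le_norm e (x.1 - c)
    rw [he, one_mul] at h1
    exact div_nonneg (by linarith [hrad _ (hmem x)]) hε.le
  · intro x
    have h1 := abs_real_inner_le_norm e (x.1 - c)
    rw [he, one_mul] at h1
    have h2 := (abs_le.1 h1).1
    exact div_le_div_of_nonneg_right (by linarith [hrad _ (hmem x)]) hε.le
  · intro x hx
    have hx' : closedBall x.1 (2 * ε) ⊆ V := hx
    have h1 : ‖x.1 + ε • e - x.1‖ ≤ ε := by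
      rw [add_sub_cancel_left, norm_smul, he, mul_one, Real.norm_of_nonneg hε.le]
    refine ⟨⟨x.1 + ε • e, hnear x hx' _ h1⟩, h1, le_of_eq ?_⟩
    have h2 : x.1 + ε • e - c = (x.1 - c) + ε • e := by abel
    simp only
    rw [h2, inner_add_right, real_inner_smul_right, real_inner_self_eq_norm_sq, he]
    field_simp
    ring
  · intro x
    have h0 := x.2 (hmn1 x)
    have h1 := hh x₀ (subset_closure hx0V) (mn x) (subset_closure h0)
    rw [norm_sub_rev] at h1
    have h2 := hdiam _ h0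
    simp only [hv]
    linarith
  · intro x
    have h0 := x.2 (hmn1 x)
    have h1 := hh (mn x) (subset_closure h0) x₀ (subset_closure hx0V)
    have h2 := hdiam _ h0
    simp only [hv]
    linarith
  · intro x
    have h0 := x.2 (hmx1 x)
    have h1 := hu (mx x) (subset_closure h0) x₀ (subset_closure hx0V)
    have h2 := hdiam _ h0
    simp only [hw]
    linarith
  · intro x hx
    have hx' : ¬ closedBall x.1 (2 * ε) ⊆ V := hx
    obtain ⟨z, hz1, hz2⟩ := not_subset.1 hx'
    obtain ⟨y, hy, hseg⟩ := H510.exists_frontier_segment hV (hmem x) hz2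
    have h0 := seg_norm hseg
    rw [mem_closedBall, dist_eq_norm, norm_sub_rev] at hz1
    have h1 := hu x.1 (subset_closure (hmem x)) y (frontier_subset_closure hy)
    have h2 := hh y (frontier_subset_closure hy) x.1 (subset_closure (hmem x))
    rw [norm_sub_rev] at h2
    have h3 := hb y hy
    have h4 : L * ‖x.1 - y‖ ≤ L * (2 * ε) :=
      mul_le_mul_of_nonneg_left (by linarith [norm_nonneg (y - z)]) hL
    have h5 := hw2 x
    have h6 := hv2 x
    linarith

/-- Jensen's comparison principle, for Lipschitz functions. -/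
theorem jensen {u h : E → ℝ} {V : Set E} {c e : E} (he : ‖e‖ = 1) {r L b : ℝ}
    (hV : IsOpen V) (hVr : V ⊆ ball c r) (hL : 0 ≤ L)
    (hu : ∀ x ∈ closure V, ∀ y ∈ closure V, u x - u y ≤ L * ‖x - y‖)
    (hh : ∀ x ∈ closure V, ∀ y ∈ closure V, h x - h y ≤ L * ‖x - y‖)
    (hcu : ConeComp u V) (hch : ConeComp h V) (hb : ∀ y ∈ frontier V, u y - h y ≤ b) :
    ∀ x ∈ V, u x - h x ≤ b := by
  intro x hx
  have hr : 0 < r := pos_of_mem_ball (hVr hx)
  refine le_of_forall_pos_le_add fun η hη => ?_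
  obtain ⟨ρ, hρ, hball⟩ := Metric.isOpen_iff.1 hV x hx
  set ε : ℝ := min (ρ / 2) (η / (18 * (L + 1))) with hε
  have hε0 : 0 < ε := lt_min (by linarith) (by positivity)
  have hε1 : ε ≤ ρ / 2 := min_le_left _ _
  have hε2 : ε * (18 * (L + 1)) ≤ η := by
    have : ε ≤ η / (18 * (L + 1)) := min_le_right _ _
    rwa [le_div_iff₀ (by positivity)] at this
  have key := jensen_aux he hV hVr hε0 hL (δ := η * ε / (12 * r))
    (l := η / (3 * (4 * L * r + η / 3) ^ 2)) (by positivity) (by positivity) hu hh hcu hch hb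
    ((closedBall_subset_ball (by linarith)).trans hball)
  have h1 : 2 * (η * ε / (12 * r)) * (2 * r / ε) = η / 3 := by field_simp; ring
  rw [h1] at key
  have h2 : η / (3 * (4 * L * r + η / 3) ^ 2) * (4 * L * r + η / 3) ^ 2 = η / 3 := by
    field_simp
  rw [h2] at key
  nlinarith

/-- Comparison with upward cones on an open set on whose closure the function is continuous. -/
theorem above_closure {u : E → ℝ} {Ω W : Set E} (hu : ConeComp u Ω) (hW : IsOpen W)
    (hWb : Bornology.IsBounded W) (hWΩ : W ⊆ Ω) (hc : ContinuousOn u (closure W))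
    {z : E} {a b : ℝ} (hb : 0 ≤ b) (hf : ∀ x ∈ frontier W, u x ≤ a + b * ‖x - z‖)
    (hz : z ∈ W → u z ≤ a) : ∀ x ∈ W, u x ≤ a + b * ‖x - z‖ := by
  intro x hx
  refine le_of_forall_pos_le_add fun η hη => ?_
  by_contra hcon
  have hk : Continuous fun y : E => a + η + b * ‖y - z‖ := by fun_prop
  set V : Set E := {y | y ∈ W ∧ a + η + b * ‖y - z‖ < u y} with hV
  have hVW : V ⊆ W := fun y hy => hy.1
  have hVo : IsOpen V := by
    rw [isOpen_iff_mem_nhds]
    intro y hy
    have h1 : ContinuousAt u y :=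
      hc.continuousAt (mem_of_superset (hW.mem_nhds hy.1) subset_closure)
    filter_upwards [hW.mem_nhds hy.1, hk.continuousAt.eventually_lt h1 hy.2] with w hw1 hw2
    exact ⟨hw1, hw2⟩
  have hcl : ∀ y ∈ closure V, y ∈ W := by
    intro y hy
    have hy1 : y ∈ closure W := closure_mono hVW hy
    have h1 : a + η + b * ‖y - z‖ ≤ u y :=
      ContinuousWithinAt.closure_le hy hk.continuousWithinAt
        ((hc y hy1).mono (hVW.trans subset_closure)) fun w hw => hw.2.le
    by_contra hyW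
    have := hf y (by rw [hW.frontier_eq]; exact ⟨hy1, hyW⟩)
    linarith
  have := hu.above V hVo (hWb.subset hVW) (fun y hy => hWΩ (hcl y hy)) z (a + η) b hb ?_
    (fun h => by linarith [hz h.1]) x ⟨hx, by linarith [not_le.1 hcon]⟩
  · exact hcon (by linarith)
  · intro y hy
    rw [hVo.frontier_eq] at hy
    by_contra hlt
    exact hy.2 ⟨hcl y hy.1, not_le.1 hlt⟩

theorem coneComp_congr {u v : E → ℝ} {Ω : Set E} {a₀ : ℝ} (hu : ConeComp u Ω)
    (h : ∀ x ∈ Ω, v x = u x - a₀) : ConeComp v Ω := by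
  refine ⟨(hu.cont.sub continuousOn_const).congr h, ?_, ?_⟩
  · intro V hV hb hc z a b hb0 hf hz x hx
    have := hu.above V hV hb hc z (a + a₀) b hb0
      (fun y hy => by linarith [hf y hy, h y (hc (frontier_subset_closure hy))])
      (fun hzV => by linarith [hz hzV, h z (hc (subset_closure hzV))]) x hx
    linarith [h x (hc (subset_closure hx))]
  · intro V hV hb hc z a b hb0 hf hz x hx
    have := hu.below V hV hb hc z (a + a₀) b hb0
      (fun y hy => by linarith [hf y hy, h y (hc (frontier_subset_closure hy))])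
      (fun hzV => by linarith [hz hzV, h z (hc (subset_closure hzV))]) x hx
    linarith [h x (hc (subset_closure hx))]

/-- Comparison with cones is invariant under an isometric involution. -/
theorem coneComp_comp {u : E → ℝ} {Ω : Set E} {σ : E → E} (hu : ConeComp u Ω)
    (hΩ : Bornology.IsBounded Ω) (h1 : ∀ x, σ (σ x) = x) (h2 : ∀ x y, ‖σ x - σ y‖ = ‖x - y‖)
    (h3 : ∀ x ∈ Ω, σ x ∈ Ω) : ConeComp (fun x => u (σ x)) Ω := by
  have hσ : Continuous σ :=
    (Isometry.of_dist_eq fun x y => by rw [dist_eq_norm, dist_eq_norm, h2]).continuous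
  let s : E ≃ₜ E := ⟨⟨σ, σ, h1, h1⟩, hσ, hσ⟩
  have hs : ∀ x, s x = σ x := fun _ => rfl
  have hcl : ∀ V : Set E, closure V ⊆ Ω → closure (s ⁻¹' V) ⊆ Ω := by
    intro V hV y hy
    rw [← s.preimage_closure] at hy
    have := h3 _ (hV hy)
    rwa [hs, h1] at this
  have hfr : ∀ (V : Set E) (y : E), y ∈ frontier (s ⁻¹' V) → σ y ∈ frontier V := by
    intro V y hy
    rwa [← s.preimage_frontier] at hy
  have hn : ∀ y z, ‖σ y - z‖ = ‖y - σ z‖ := by
    intro y z
    rw [← h2 y (σ z), h1]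
  have hin : ∀ (V : Set E) (y : E), σ y ∈ s ⁻¹' V ↔ y ∈ V := by
    intro V y
    rw [mem_preimage, hs, h1]
  refine ⟨hu.cont.comp hσ.continuousOn h3, ?_, ?_⟩
  · intro V hV _ hc z a b hb0 hf hz x hx
    have := hu.above (s ⁻¹' V) (hV.preimage s.continuous)
      (hΩ.subset (subset_closure.trans (hcl V hc))) (hcl V hc) (σ z) a b hb0
      (fun y hy => by have := hf _ (hfr V y hy); rwa [h1, hn] at this)
      (fun hzV => hz ((hin V z).1 hzV)) (σ x) ((hin V x).2 hx)
    rwa [h2] at this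
  · intro V hV _ hc z a b hb0 hf hz x hx
    have := hu.below (s ⁻¹' V) (hV.preimage s.continuous)
      (hΩ.subset (subset_closure.trans (hcl V hc))) (hcl V hc) (σ z) a b hb0
      (fun y hy => by have := hf _ (hfr V y hy); rwa [h1, hn] at this)
      (fun hzV => hz ((hin V z).1 hzV)) (σ x) ((hin V x).2 hx)
    rwa [h2] at this

end Vale.Agent.N080B
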