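import Vale.Agent.N080B.Pt

/-!
Boundary regularity for constant boundary values, and a Liouville theorem in a half space.
-/

set_option linter.unusedSectionVars false

namespace Vale.Agent.N080B

open Vale.Agent.P080 Vale.Agent.N080 Metric Set Filter
open scoped RealInnerProductSpace Topology

variable {E : Type} [NormedAddCommGroup E] [InnerProductSpace ℝ E] [CompleteSpace E]
  [FiniteDimensional ℝ E]

theorem InfHarm.coneComp {u : E → ℝ} {Ω : Set E} (h : InfHarm u Ω) : ConeComp u Ω := by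
  refine IsInfHarmonicOn.coneComp ⟨h.1, fun z hz φ hφ hm => ?_, fun z hz φ hφ hm => ?_⟩
  · have := (h.2 z hz φ hφ).1 hm
    rwa [iteratedFDeriv_two_apply] at this
  · have := (h.2 z hz φ hφ).2 hm
    rwa [iteratedFDeriv_two_apply] at this

theorem boundary {γ : ℝ} (hγ : 0 < γ) : ∃ β : ℝ, 0 < β ∧ ∃ C : ℝ, 0 < C ∧
    ∀ (Ω : Set E) (u : E → ℝ) (x₀ : E) (R M a : ℝ), IsOpen Ω → 0 < R →
      InfHarm u (Ω ∩ ball x₀ R) → ContinuousOn u (closure Ω ∩ ball x₀ R) →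
      (∀ y ∈ frontier Ω ∩ ball x₀ R, u y = a) → (∀ y ∈ Ω ∩ ball x₀ R, |u y - a| ≤ M) →
      (∀ ν, FlatAt Ω x₀ ν γ R → ∃ s : ℝ, |s| ≤ C * (M / R) ∧
        (∀ y ∈ Ω ∩ ball x₀ R, |u y - a - s * ⟪ν, y - x₀⟫| ≤
          C * (M / R) * ‖y - x₀‖ * (‖y - x₀‖ / R) ^ β) ∧
        ((∀ y ∈ Ω ∩ ball x₀ R, a < u y) → 0 < s)) ∧
      ((∀ c ∈ frontier Ω ∩ ball x₀ R, ∃ ν, FlatAt Ω c ν γ R) →
        ∀ x ∈ Ω ∩ ball x₀ (R / 2), DifferentiableAt ℝ u x ∧ ‖gradient u x‖ ≤ C * (M / R) ∧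
          ∀ y ∈ Ω ∩ ball x₀ (R / 2),
            ‖gradient u x - gradient u y‖ ≤ C * (M / R) * (‖x - y‖ / R) ^ β) := by
  classical
  obtain ⟨β, D, hβ, hβ1, hD, hE⟩ := exists_expandsNear (E := E) hγ
  obtain ⟨K, hK, hG⟩ := grad_holder hγ hβ hβ1 hD hE
  refine ⟨β, hβ, 16 * (128 * (129 + D) + K), by positivity, ?_⟩
  intro Ω u x₀ R M a hΩ hR hu hc ha hM
  set U : E → ℝ := fun y => if y ∈ Ω then u y - a else 0 with hUdef
  have hU1 : ∀ y ∈ Ω, U y = u y - a := fun y hy => if_pos hy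
  have h0 : ∀ y, y ∉ Ω → U y = 0 := fun y hy => if_neg hy
  have hcc : ConeComp U (Ω ∩ ball x₀ R) := coneComp_congr hu.coneComp fun y hy => hU1 y hy.1
  have hUc : ContinuousOn U (closure Ω ∩ ball x₀ R) := by
    refine (hc.sub (continuousOn_const (c := a))).congr fun y hy => ?_
    by_cases hyΩ : y ∈ Ω
    · exact hU1 y hyΩ
    · rw [h0 y hyΩ]
      have := ha y ⟨by rw [hΩ.frontier_eq]; exact ⟨hy.1, hyΩ⟩, hy.2⟩
      simp [this]
  have hUM : 0 ≤ M → ∀ y ∈ ball x₀ R, |U y| ≤ M := by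
    intro hM0 y hy
    by_cases hyΩ : y ∈ Ω
    · rw [hU1 y hyΩ]; exact hM y ⟨hyΩ, hy⟩
    · rw [h0 y hyΩ, abs_zero]; exact hM0
  have hL : 16 * M / R = 16 * (M / R) := by ring
  refine ⟨fun ν hν => ?_, fun hflat x hx => ?_⟩
  · have hM0 : 0 ≤ M := by
      have h1 : ‖x₀ + (R / 2) • ν - x₀‖ = R / 2 := by
        rw [add_sub_cancel_left, norm_smul, hν.1, mul_one, Real.norm_of_nonneg (by positivity)]
      have h3 : (R / 2 / R) ^ γ < 1 :=
        Real.rpow_lt_one (by positivity) (by rw [div_lt_one hR]; linarith) hγ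
      refine (abs_nonneg _).trans (hM (x₀ + (R / 2) • ν)
        ⟨(hν.at_scale hγ (ρ := R / 2) (by linarith) h1.le).1 ?_, ?_⟩)
      · rw [add_sub_cancel_left, real_inner_smul_right, real_inner_self_eq_norm_sq, hν.1]
        nlinarith
      · rw [mem_ball, dist_eq_norm, h1]; linarith
    have hq : 0 ≤ M / R := by positivity
    obtain ⟨s, s1, s2, s3⟩ := point_exp hγ hβ hβ1 hD hE hR (L := 16 * M / R) (by positivity) h0
      (fun y hy => (hUM hM0 y hy).trans (by rw [div_mul_cancel₀ _ hR.ne']; linarith))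
      (lip_ext hΩ hR hcc hUc h0 (hUM hM0)) hcc hν
    rw [hL] at s1 s2
    refine ⟨s, s1.trans (by nlinarith), fun y hy => ?_, fun hp => s3 fun y hy => ?_⟩
    · rw [← hU1 y hy.1]
      refine (s2 y hy).trans ?_
      have : 0 ≤ K * (M / R) * ‖y - x₀‖ * (‖y - x₀‖ / R) ^ β := by positivity
      linarith
    · rw [hU1 y hy.1]
      linarith [hp y hy]
  · have hin : Ω ∩ ball x₀ (R / 2) ⊆ Ω ∩ ball x₀ R :=
      inter_subset_inter_right _ (ball_subset_ball (by linarith))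
    have hM0 : 0 ≤ M := (abs_nonneg _).trans (hM x (hin hx))
    have hq : 0 ≤ M / R := by positivity
    have hgr : ∀ y ∈ Ω, gradient U y = gradient u y := by
      intro y hy
      have h1 : U =ᶠ[𝓝 y] fun w => u w - a := by
        filter_upwards [hΩ.mem_nhds hy] with w hw using hU1 w hw
      rw [h1.gradient_eq, gradient, gradient, fderiv_sub_const]
    obtain ⟨g1, g2⟩ := hG U Ω x₀ R (16 * M / R) hΩ hR (by positivity) h0
      (lip_ext hΩ hR hcc hUc h0 (hUM hM0)) hcc hflat x hx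
    rw [hL] at g1 g2
    rw [hgr x hx.1] at g1 g2
    refine ⟨?_, g1.trans (by nlinarith), fun y hy => ?_⟩
    · exact ((H510.contDiffOn_of_cone (hΩ.inter isOpen_ball) hu.coneComp).contDiffAt
        ((hΩ.inter isOpen_ball).mem_nhds (hin hx))).differentiableAt (by simp)
    · rw [← hgr y hy.1]
      refine (g2 y hy).trans ?_
      have : 0 ≤ (129 + D) * (M / R) * (‖x - y‖ / R) ^ β := by positivity
      linarith

theorem halfspace : ∃ β : ℝ, 0 < β ∧ ∀ (u : E → ℝ) (ν : E), ‖ν‖ = 1 →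
    InfHarm u {y | 0 < ⟪ν, y⟫} → ContinuousOn u {y | 0 ≤ ⟪ν, y⟫} → (∀ y, ⟪ν, y⟫ = 0 → u y = 0) →
    (∀ ε > 0, ∀ R₀ : ℝ, ∃ R ≥ R₀, ∀ y, 0 < ⟪ν, y⟫ → ‖y‖ < R → |u y| ≤ ε * R ^ (1 + β)) →
    ∃ s : ℝ, ∀ y, 0 ≤ ⟪ν, y⟫ → u y = s * ⟪ν, y⟫ := by
  obtain ⟨β, hβ, C, hC, h⟩ := boundary (E := E) one_pos
  refine ⟨β, hβ, fun u ν hν hu hc h0 hg => ⟨u ν, fun y hy => ?_⟩⟩
  rcases hy.eq_or_lt with hy | hy
  · rw [h0 y hy.symm, ← hy, mul_zero]
  have hΩ : IsOpen {y : E | 0 < ⟪ν, y⟫} := isOpen_lt continuous_const (by fun_prop)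
  have hcl : closure {y : E | 0 < ⟪ν, y⟫} ⊆ {y | 0 ≤ ⟪ν, y⟫} :=
    closure_minimal (fun y (hy : 0 < ⟪ν, y⟫) => hy.le) (isClosed_le continuous_const (by fun_prop))
  have hνν : ⟪ν, ν⟫ = 1 := by rw [real_inner_self_eq_norm_sq, hν]; ring
  have key : ∀ ε > 0, |u y - u ν * ⟪ν, y⟫| ≤ ε * (C * (‖y‖ * ‖y‖ ^ β + ⟪ν, y⟫)) := by
    intro ε hε
    obtain ⟨R, hR, hb⟩ := hg ε hε (‖y‖ + 2)
    have hy0 := norm_nonneg y
    have hR0 : 0 < R := by linarith
    obtain ⟨s, -, hs, -⟩ := (h _ u 0 R (ε * R ^ (1 + β)) 0 hΩ hR0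
      ⟨hu.1.mono inter_subset_left, fun z hz => hu.2 z hz.1⟩
      (hc.mono (inter_subset_left.trans hcl))
      (fun z hz => by
        rw [hΩ.frontier_eq] at hz
        exact h0 z (le_antisymm (not_lt.1 hz.1.2) (hcl hz.1.1)))
      (fun z hz => by
        rw [sub_zero]
        exact hb z hz.1 (mem_ball_zero_iff.1 hz.2))).1 ν ⟨hν, fun z _ => by
          have : 0 ≤ ‖z - 0‖ * (‖z - 0‖ / R) ^ (1 : ℝ) := by positivity
          rw [sub_zero] at this ⊢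
          exact ⟨fun h => this.trans_lt h, fun (h : 0 < ⟪ν, z⟫) => by linarith⟩⟩
    have he : ∀ t : ℝ, 0 ≤ t →
        C * (ε * R ^ (1 + β) / R) * t * (t / R) ^ β = ε * (C * (t * t ^ β)) := by
      intro t ht
      rw [Real.div_rpow ht hR0.le, Real.rpow_add hR0, Real.rpow_one]
      have : 0 < R ^ β := by positivity
      field_simp
    have a1 := hs y ⟨hy, mem_ball_zero_iff.2 (by linarith)⟩
    have a2 := hs ν ⟨show 0 < ⟪ν, ν⟫ by rw [hνν]; exact one_pos,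
      mem_ball_zero_iff.2 (by linarith)⟩
    simp only [sub_zero] at a1 a2
    rw [he _ hy0] at a1
    rw [he _ (norm_nonneg _), hν, hνν, Real.one_rpow] at a2
    have a3 := mul_le_mul_of_nonneg_right a2 hy.le
    rw [← abs_of_pos hy, ← abs_mul, abs_of_pos hy] at a3
    have a4 : u y - u ν * ⟪ν, y⟫ = (u y - s * ⟪ν, y⟫) - (u ν - s * 1) * ⟪ν, y⟫ := by ring
    rw [a4]
    exact (abs_sub _ _).trans (by linarith)
  have h1 : |u y - u ν * ⟪ν, y⟫| ≤ 0 := by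
    refine le_of_forall_pos_le_add fun η hη => ?_
    have hp : 0 < C * (‖y‖ * ‖y‖ ^ β + ⟪ν, y⟫) := by positivity
    have := key (η / (C * (‖y‖ * ‖y‖ ^ β + ⟪ν, y⟫))) (by positivity)
    rw [div_mul_cancel₀ _ hp.ne'] at this
    linarith
  exact sub_eq_zero.1 (abs_nonpos_iff.1 h1)

end Vale.Agent.N080B
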