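import Vale.Agent.N080B.Exp

/-!
The expansion at one flat boundary point, and the sign of the normal derivative.
-/

set_option linter.unusedSectionVars false

namespace Vale.Agent.N080B

open Vale.Agent.P080 Vale.Agent.N080 Metric Set Filter
open scoped RealInnerProductSpace Topology

variable {E : Type} [NormedAddCommGroup E] [InnerProductSpace ℝ E] [CompleteSpace E]
  [FiniteDimensional ℝ E]

theorem normal_of_exp {u : E → ℝ} {c ν p : E} {A B t₀ R β γ : ℝ} (hν : ‖ν‖ = 1) (hβ : 0 < β)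
    (hγ : 0 < γ) (ht : 0 < t₀) (hc : u c = 0)
    (hp : ∀ y, ‖y - c‖ ≤ t₀ → |u y - u c - ⟪p, y - c⟫| ≤ A * ‖y - c‖ * (‖y - c‖ / t₀) ^ β)
    (hs : ∀ y, y ≠ c → ‖y - c‖ ≤ t₀ → ⟪ν, y - c⟫ = 0 →
      |u y| ≤ B * (3 * ‖y - c‖ * (3 * ‖y - c‖ / R) ^ γ)) :
    p = ⟪ν, p⟫ • ν := by
  by_contra hne
  set q := p - ⟪ν, p⟫ • ν with hq
  have hq0 : 0 < ‖q‖ := norm_pos_iff.2 (sub_ne_zero.2 hne)
  have h1 : ⟪ν, q⟫ = 0 := by
    rw [hq, inner_sub_right, real_inner_smul_right, real_inner_self_eq_norm_sq, hν]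
    ring
  have h2 : ⟪p, q⟫ = ‖q‖ ^ 2 := by
    have : p = q + ⟪ν, p⟫ • ν := by rw [hq]; abel
    rw [this, inner_add_left, real_inner_smul_left, h1, real_inner_self_eq_norm_sq]
    ring
  have T := ((tendsto_small (‖q‖ / t₀) hβ).const_mul A).add
    ((tendsto_small (3 * ‖q‖ / R) hγ).const_mul (3 * B))
  rw [mul_zero, mul_zero, add_zero] at T
  have h3 : ‖q‖ ≤ 0 := by
    refine ge_of_tendsto (T.mono_left (nhdsWithin_le_nhds (s := Ioi 0))) ?_
    filter_upwards [Ioo_mem_nhdsGT (div_pos ht hq0)] with ρ hρ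
    have hρ1 := (lt_div_iff₀ hq0).1 hρ.2
    have hn : ‖c + ρ • q - c‖ = ρ * ‖q‖ := by
      rw [add_sub_cancel_left, norm_smul, Real.norm_of_nonneg hρ.1.le]
    have hpos := mul_pos hρ.1 hq0
    have a1 := hp (c + ρ • q) (by rw [hn]; exact hρ1.le)
    have a2 := hs (c + ρ • q) (fun h => by
      rw [h, sub_self, norm_zero] at hn; linarith) (by rw [hn]; exact hρ1.le)
      (by rw [add_sub_cancel_left, real_inner_smul_right, h1, mul_zero])
    rw [hn] at a1 a2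
    rw [add_sub_cancel_left, real_inner_smul_right, h2, hc] at a1
    have e1 : ρ * ‖q‖ / t₀ = ρ * (‖q‖ / t₀) := by ring
    have e2 : 3 * (ρ * ‖q‖) / R = ρ * (3 * ‖q‖ / R) := by ring
    rw [e1] at a1
    rw [e2] at a2
    refine le_of_mul_le_mul_left ?_ hpos
    linarith [(abs_le.1 a1).1, (abs_le.1 a2).2]
  linarith

theorem hopf {U : E → ℝ} {Ω : Set E} {c ν : E} {γ R A t₀ β : ℝ} (h : FlatAt Ω c ν γ R)
    (hγ : 0 < γ) (hβ : 0 < β) (ht : 0 < t₀) (htR : 2 * t₀ < R)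
    (hcc : ConeComp U (Ω ∩ ball c R)) (hpos : ∀ y ∈ Ω ∩ ball c R, 0 < U y)
    (hup : ∀ ρ, 0 < ρ → ρ ≤ t₀ → U (c + ρ • ν) ≤ A * ρ * (ρ / t₀) ^ β) : False := by
  have hR : 0 < R := by linarith
  set q : ℝ := (1 / 2 : ℝ) ^ β with hq
  have hq0 : 0 < q := by positivity
  have hq1 : q < 1 := Real.rpow_lt_one (by norm_num) (by norm_num) hβ
  set ε : ℝ := (1 - q) / 4 with hε
  have hε0 : 0 < ε := by linarith
  obtain ⟨ρ₀, hρ0, hρt, hρε⟩ : ∃ ρ₀ : ℝ, 0 < ρ₀ ∧ ρ₀ ≤ t₀ ∧ (2 * ρ₀ / R) ^ γ ≤ ε / 4 := by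
    have T := (tendsto_small (2 / R) hγ).mono_left (nhdsWithin_le_nhds (s := Ioi 0))
    obtain ⟨ρ, a1, a2⟩ := ((T.eventually (ge_mem_nhds (by positivity : 0 < ε / 4))).and
      (Ioo_mem_nhdsGT ht)).exists
    refine ⟨ρ, a2.1, a2.2.le, ?_⟩
    rwa [show 2 * ρ / R = ρ * (2 / R) by ring]
  have hball : ∀ ρ, 0 < ρ → ρ ≤ ρ₀ → closedBall (c + ρ • ν) (ρ * (1 - ε)) ⊆ Ω ∩ ball c R := by
    intro ρ hρ hρ1 y hy
    rw [mem_closedBall, dist_eq_norm] at hy
    have he : y - c = (y - (c + ρ • ν)) + ρ • ν := by abel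
    have hn : ‖ρ • ν‖ = ρ := by rw [norm_smul, h.1, mul_one, Real.norm_of_nonneg hρ.le]
    have hρε' := mul_pos hρ hε0
    have h1 : ‖y - c‖ ≤ 2 * ρ := by
      rw [he]
      exact (norm_add_le _ _).trans (by linarith)
    refine ⟨(h.at_scale hγ (by linarith) h1).1 ?_, by rw [mem_ball, dist_eq_norm]; linarith⟩
    have h3 := abs_real_inner_le_norm ν (y - (c + ρ • ν))
    rw [h.1, one_mul] at h3
    rw [he, inner_add_right, real_inner_smul_right, real_inner_self_eq_norm_sq, h.1]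
    have h4 := (abs_le.1 h3).1
    have h5 : (2 * ρ / R) ^ γ ≤ ε / 4 := le_trans (by gcongr) hρε
    nlinarith
  have hε1 : 0 < 1 - ε := by linarith
  have hmem : ∀ ρ, 0 < ρ → ρ ≤ ρ₀ → 0 < U (c + ρ • ν) := fun ρ hρ hρ1 =>
    hpos _ (hball ρ hρ hρ1 (mem_closedBall_self (by positivity)))
  have hstep : ∀ ρ, 0 < ρ → ρ ≤ ρ₀ → (1 + q) / 2 * U (c + ρ • ν) ≤ 2 * U (c + (ρ / 2) • ν) := by
    intro ρ hρ hρ1
    have h1 := hmem ρ hρ hρ1
    have hn : ‖c + (ρ / 2) • ν - (c + ρ • ν)‖ = ρ / 2 := by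
      have : c + (ρ / 2) • ν - (c + ρ • ν) = -((ρ / 2) • ν) := by module
      rw [this, norm_neg, norm_smul, h.1, mul_one, Real.norm_of_nonneg (by positivity)]
    have h2 := hcc.below (ball (c + ρ • ν) (ρ * (1 - ε))) isOpen_ball isBounded_ball
      (closure_ball_subset_closedBall.trans (hball ρ hρ hρ1)) (c + ρ • ν) (U (c + ρ • ν))
      (U (c + ρ • ν) / (ρ * (1 - ε))) (by positivity) ?_ (fun _ => le_rfl) (c + (ρ / 2) • ν)
      (by rw [mem_ball, dist_eq_norm, hn]; nlinarith)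
    · rw [hn] at h2
      have h3 : U (c + ρ • ν) / (ρ * (1 - ε)) * (ρ / 2) = U (c + ρ • ν) * (1 / (1 - ε)) / 2 := by
        field_simp
      have h4 : 1 / (1 - ε) ≤ 1 + 2 * ε := by
        rw [div_le_iff₀ hε1]
        nlinarith
      have h5 := mul_le_mul_of_nonneg_left h4 h1.le
      rw [h3] at h2
      have h6 : (1 + q) / 2 = 1 - 2 * ε := by rw [hε]; ring
      rw [h6]
      linarith
    · intro y hy
      rw [frontier_ball _ (by positivity)] at hy
      have h3 := hpos y (hball ρ hρ hρ1 (sphere_subset_closedBall hy))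
      rw [mem_sphere, dist_eq_norm] at hy
      rw [hy, div_mul_cancel₀ _ (by positivity)]
      linarith
  have hhalf : ∀ n : ℕ, ρ₀ * (1 / 2) ^ n ≤ ρ₀ := fun n =>
    mul_le_of_le_one_right hρ0.le (pow_le_one₀ (by norm_num) (by norm_num))
  have hlow : ∀ n : ℕ, ((1 + q) / 2) ^ n * U (c + ρ₀ • ν) ≤
      2 ^ n * U (c + (ρ₀ * (1 / 2) ^ n) • ν) := by
    intro n
    induction n with
    | zero => simp
    | succ n ih =>
      have h1 := hstep _ (by positivity) (hhalf n)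
      have h2 : ρ₀ * (1 / 2) ^ n / 2 = ρ₀ * (1 / 2) ^ (n + 1) := by ring
      rw [h2] at h1
      have h3 := mul_le_mul_of_nonneg_left ih (by positivity : 0 ≤ (1 + q) / 2)
      have h4 := mul_le_mul_of_nonneg_left h1 (by positivity : (0 : ℝ) ≤ 2 ^ n)
      rw [pow_succ, pow_succ]
      linarith
  have hupp : ∀ n : ℕ, U (c + ρ₀ • ν) ≤ A * ρ₀ * (ρ₀ / t₀) ^ β * (q / ((1 + q) / 2)) ^ n := by
    intro n
    have h1 := hup _ (by positivity) ((hhalf n).trans hρt)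
    have h2 : (ρ₀ * (1 / 2) ^ n / t₀) ^ β = (ρ₀ / t₀) ^ β * q ^ n := by
      rw [mul_div_right_comm, Real.mul_rpow (by positivity) (by positivity), hq,
        ← Real.rpow_natCast, ← Real.rpow_natCast, ← Real.rpow_mul (by norm_num),
        ← Real.rpow_mul (by norm_num), mul_comm (n : ℝ) β]
    rw [h2] at h1
    have h3 := mul_le_mul_of_nonneg_left h1 (by positivity : (0 : ℝ) ≤ 2 ^ n)
    have h4 : (2 : ℝ) ^ n * (A * (ρ₀ * (1 / 2) ^ n) * ((ρ₀ / t₀) ^ β * q ^ n)) =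
        A * ρ₀ * (ρ₀ / t₀) ^ β * q ^ n := by
      rw [one_div, inv_pow]
      field_simp
    rw [div_pow, ← mul_div_assoc, le_div_iff₀ (by positivity)]
    linarith [hlow n]
  have T := (tendsto_pow_atTop_nhds_zero_of_lt_one (r := q / ((1 + q) / 2)) (by positivity)
    (by rw [div_lt_one (by positivity)]; linarith)).const_mul (A * ρ₀ * (ρ₀ / t₀) ^ β)
  rw [mul_zero] at T
  linarith [ge_of_tendsto' T hupp, hmem ρ₀ hρ0 le_rfl]

theorem point_exp {γ β D : ℝ} (hγ : 0 < γ) (hβ : 0 < β) (hβ1 : β ≤ 1) (hD : 0 < D)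
    (hE : ExpandsNear E γ β D) {U : E → ℝ} {Ω : Set E} {c ν : E} {R L : ℝ} (hR : 0 < R)
    (hL : 0 ≤ L) (h0 : ∀ y, y ∉ Ω → U y = 0) (hM : ∀ y ∈ ball c R, |U y| ≤ L * R)
    (hlip : ∀ x ∈ closedBall c (3 * R / 4), ∀ y ∈ closedBall c (3 * R / 4),
      U x - U y ≤ L * ‖x - y‖)
    (hcc : ConeComp U (Ω ∩ ball c R)) (h : FlatAt Ω c ν γ R) :
    ∃ s : ℝ, |s| ≤ (1 + D) * L ∧
      (∀ y ∈ Ω ∩ ball c R, |U y - s * ⟪ν, y - c⟫| ≤
        128 * (129 + D) * L * ‖y - c‖ * (‖y - c‖ / R) ^ β) ∧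
      ((∀ y ∈ Ω ∩ ball c R, 0 < U y) → 0 < s) := by
  obtain ⟨p, hp⟩ := hE _ c R L hR hL (near_point h hγ hL h0
    (by rw [sub_self, norm_zero]; positivity) hlip hcc (by simp))
  have hcΩ := h.notMem hR
  have hc : oddExt Ω U ν c c = 0 := by
    rw [oddExt, if_neg hcΩ, refl_center, h0 c hcΩ, neg_zero]
  have hn := normal_of_exp (B := L) (R := R) h.1 hβ hγ (by positivity) hc hp (by
    intro y hyc hy ht
    have h1 : closedBall c (3 * ‖y - c‖) ⊆ closedBall c (3 * R / 4) :=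
      closedBall_subset_closedBall (by linarith)
    have := small_oddExt h hγ (norm_pos_iff.2 (sub_ne_zero.2 hyc)) (by linarith) hL h0
      (fun a ha b hb => hlip a (h1 ha) b (h1 hb)) y (by rw [mem_closedBall, dist_eq_norm])
    rwa [ht, abs_zero, zero_add] at this)
  set s := ⟪ν, p⟫ with hs
  have hp' : ∀ y ∈ Ω, ‖y - c‖ ≤ R / 128 →
      |U y - s * ⟪ν, y - c⟫| ≤ D * L * ‖y - c‖ * (‖y - c‖ / (R / 128)) ^ β := by
    intro y hy hyc
    have := hp y hyc
    rwa [hc, sub_zero, oddExt, if_pos hy, hn, real_inner_smul_left] at this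
  have hray : ∀ ρ, 0 < ρ → ρ ≤ R / 128 →
      |U (c + ρ • ν) - s * ρ| ≤ D * L * ρ * (ρ / (R / 128)) ^ β := by
    intro ρ hρ hρ1
    have h1 : ‖c + ρ • ν - c‖ = ρ := by
      rw [add_sub_cancel_left, norm_smul, h.1, mul_one, Real.norm_of_nonneg hρ.le]
    have h2 : ⟪ν, c + ρ • ν - c⟫ = ρ := by
      rw [add_sub_cancel_left, real_inner_smul_right, real_inner_self_eq_norm_sq, h.1]
      ring
    have h3 : (ρ / R) ^ γ < 1 :=
      Real.rpow_lt_one (by positivity) (by rw [div_lt_one hR]; linarith) hγ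
    have := hp' (c + ρ • ν) ((h.at_scale hγ (ρ := ρ) (by linarith) h1.le).1
      (by rw [h2]; nlinarith)) (by rw [h1]; exact hρ1)
    rwa [h1, h2] at this
  have hsb : |s| ≤ (1 + D) * L := by
    have h1 := hray (R / 128) (by positivity) le_rfl
    rw [div_self (by positivity), Real.one_rpow, mul_one] at h1
    have h2 : ‖c + (R / 128) • ν - c‖ = R / 128 := by
      rw [add_sub_cancel_left, norm_smul, h.1, mul_one, Real.norm_of_nonneg (by positivity)]
    have h3 : c + (R / 128) • ν ∈ closedBall c (3 * R / 4) := by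
      rw [mem_closedBall, dist_eq_norm, h2]; linarith
    have h4 : c ∈ closedBall c (3 * R / 4) := mem_closedBall_self (by positivity)
    have a1 := hlip _ h3 _ h4
    have a2 := hlip _ h4 _ h3
    rw [norm_sub_rev] at a2
    rw [h2, h0 c hcΩ] at a1 a2
    have a3 := abs_le.1 h1
    refine le_of_mul_le_mul_right ?_ (by positivity : 0 < R / 128)
    rw [← abs_of_pos (by positivity : 0 < R / 128), ← abs_mul,
      abs_of_pos (by positivity : 0 < R / 128), abs_le]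
    constructor <;> linarith [a3.1, a3.2]
  refine ⟨s, hsb, fun y hy => ?_, fun hpos => ?_⟩
  · have hpos : 0 ≤ L * ‖y - c‖ * (‖y - c‖ / R) ^ β := by positivity
    rcases le_total ‖y - c‖ (R / 128) with h1 | h1
    · refine (hp' y hy.1 h1).trans ?_
      have h4 : ‖y - c‖ / (R / 128) = 128 * (‖y - c‖ / R) := by field_simp
      rw [h4]
      have h5 := mul_le_mul_of_nonneg_left
        (rpow_scale (s := ‖y - c‖ / R) (k := 128) (by positivity) (by norm_num) hβ1)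
        (by positivity : 0 ≤ D * L * ‖y - c‖)
      linarith
    · have h2 := le_rpow_of_le (k := 1 / 128) (s := ‖y - c‖ / R) (by norm_num) (by norm_num)
        (by rw [le_div_iff₀ hR]; linarith) hβ hβ1
      have h3 := abs_real_inner_le_norm ν (y - c)
      rw [h.1, one_mul] at h3
      have h4 : |s * ⟪ν, y - c⟫| ≤ (1 + D) * L * ‖y - c‖ := by
        rw [abs_mul]
        exact mul_le_mul hsb h3 (abs_nonneg _) (by positivity)
      have h5 : L * R ≤ L * (128 * ‖y - c‖) := mul_le_mul_of_nonneg_left (by linarith) hL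
      have h6 := mul_le_mul_of_nonneg_left h2
        (by positivity : 0 ≤ 128 * (129 + D) * L * ‖y - c‖)
      exact (abs_sub _ _).trans (by linarith [hM y hy.2])
  · by_contra hs0
    refine hopf h hγ hβ (t₀ := R / 128) (A := D * L) (by positivity) (by linarith) hcc hpos ?_
    intro ρ hρ hρ1
    have := mul_nonpos_of_nonpos_of_nonneg (not_lt.1 hs0) hρ.le
    linarith [(abs_le.1 (hray ρ hρ hρ1)).2]

end Vale.Agent.N080B
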